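import Mathlib

/-!
# Strong approximation for a normal subgroup: the abstract part

`Γ` is a group with a group topology (closeness to `1` at all places but `v` and `q0`), `E` is a
topological group (the points over the completion at `v`) and `ι : Γ →* E` is a homomorphism,
which need not be continuous. `N` is a normal subgroup of `Γ`. Under cocompactness and the
existence of contracting elements the closure of `N` in `E × Γ` contains `(b, 1)` for all `b` in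
the target.

The second part divides the poles away one by one.
-/

namespace Vale.Agent.P011.H777

open Topology Filter Set

section One

variable {Γ E : Type*} [Group Γ] [TopologicalSpace Γ] [IsTopologicalGroup Γ]
  [Group E] [TopologicalSpace E] [IsTopologicalGroup E]

/-- The elements `b` of `E` for which `(b, 1)` is in the closure of the graph of `ι` on `N`. -/
def locClosure (ι : Γ →* E) (N : Subgroup Γ) : Subgroup E :=
  ((N.map (ι.prod (MonoidHom.id Γ))).topologicalClosure).comap (MonoidHom.inl E Γ)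

theorem mem_locClosure {ι : Γ →* E} {N : Subgroup Γ} {b : E} :
    b ∈ locClosure ι N ↔
      ∀ O ∈ 𝓝 b, ∀ W ∈ 𝓝 (1 : Γ), ∃ ν ∈ N, ν ∈ W ∧ ι ν ∈ O := by
  have h0 : b ∈ locClosure ι N ↔
      (b, (1 : Γ)) ∈ closure ((N.map (ι.prod (MonoidHom.id Γ)) : Subgroup (E × Γ)) :
        Set (E × Γ)) := Iff.rfl
  rw [h0, mem_closure_iff_nhds]
  constructor
  · intro h O hO W hW
    obtain ⟨⟨p, q⟩, hpq, hN⟩ := h (O ×ˢ W) (prod_mem_nhds hO hW)
    obtain ⟨ν, hν, he⟩ := hN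
    have h1 : ι ν = p := congrArg Prod.fst he
    have h2 : ν = q := congrArg Prod.snd he
    subst h1
    subst h2
    exact ⟨ν, hν, hpq.2, hpq.1⟩
  · intro h t ht
    obtain ⟨O, hO, W, hW, hs⟩ := mem_nhds_prod_iff.mp ht
    obtain ⟨ν, hν, h1, h2⟩ := h O hO W hW
    exact ⟨(ι ν, ν), hs ⟨h2, h1⟩, ν, hν, rfl⟩

theorem isClosed_locClosure (ι : Γ →* E) (N : Subgroup Γ) :
    IsClosed (locClosure ι N : Set E) := by
  have h : Continuous fun b : E => (b, (1 : Γ)) := by fun_prop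
  exact (Subgroup.isClosed_topologicalClosure (N.map (ι.prod (MonoidHom.id Γ)))).preimage h

theorem conj_mem_locClosure {ι : Γ →* E} {N : Subgroup Γ} [N.Normal] (γ : Γ) {b : E}
    (hb : b ∈ locClosure ι N) : ι γ * b * (ι γ)⁻¹ ∈ locClosure ι N := by
  rw [mem_locClosure] at hb ⊢
  intro O hO W hW
  have h1 : (fun x : E => ι γ * x * (ι γ)⁻¹) ⁻¹' O ∈ 𝓝 b :=
    (by fun_prop : Continuous fun x : E => ι γ * x * (ι γ)⁻¹).continuousAt hO
  have h2 : (fun x : Γ => γ * x * γ⁻¹) ⁻¹' W ∈ 𝓝 (1 : Γ) := by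
    apply (by fun_prop : Continuous fun x : Γ => γ * x * γ⁻¹).continuousAt
    simpa using hW
  obtain ⟨ν, hν, h3, h4⟩ := hb _ h1 _ h2
  exact ⟨γ * ν * γ⁻¹, Subgroup.Normal.conj_mem inferInstance ν hν γ, h3, by simpa using h4⟩

/-- The closure is normalised by the closure of the range of `ι`. -/
theorem conj_mem_locClosure_of_mem_closure {ι : Γ →* E} {N : Subgroup Γ} [N.Normal] {e b : E}
    (he : e ∈ closure (range ι)) (hb : b ∈ locClosure ι N) :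
    e * b * e⁻¹ ∈ locClosure ι N := by
  have h : MapsTo (fun e : E => e * b * e⁻¹) (range ι) (locClosure ι N) := by
    rintro _ ⟨γ, rfl⟩
    exact conj_mem_locClosure γ hb
  have h2 := h.closure (by fun_prop) he
  rwa [(isClosed_locClosure ι N).closure_eq] at h2

omit [TopologicalSpace E] [IsTopologicalGroup E] in
/-- First exit: along a word in `Sig` the conjugates of `y` leave `W0` into `L0`. -/
theorem exists_exit {Sig W0 L0 : Set E} (hSig : ∀ s ∈ Sig, ∀ w ∈ W0, s⁻¹ * w * s ∈ L0) {y : E} :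
    ∀ l : List E, (∀ s ∈ l, s ∈ Sig) → ∀ a₀ ∈ Submonoid.closure Sig, a₀⁻¹ * y * a₀ ∈ W0 →
      (a₀ * l.prod)⁻¹ * y * (a₀ * l.prod) ∉ W0 →
      ∃ a ∈ Submonoid.closure Sig, a⁻¹ * y * a ∈ L0 ∧ a⁻¹ * y * a ∉ W0 := by
  intro l
  induction l with
  | nil =>
    intro _ a₀ _ h1 h2
    exact absurd h1 (by simpa using h2)
  | cons s l ih =>
    intro hl a₀ ha₀ h1 h2
    have hs : s ∈ Sig := hl s (by simp)
    have ha : a₀ * s ∈ Submonoid.closure Sig := mul_mem ha₀ (Submonoid.subset_closure hs)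
    have he : (a₀ * s)⁻¹ * y * (a₀ * s) = s⁻¹ * (a₀⁻¹ * y * a₀) * s := by group
    by_cases h3 : (a₀ * s)⁻¹ * y * (a₀ * s) ∈ W0
    · exact ih (fun t ht => hl t (by simp [ht])) (a₀ * s) ha h3 (by
        simpa [List.prod_cons, mul_assoc] using h2)
    · exact ⟨a₀ * s, ha, by rw [he]; exact hSig s hs _ h1, h3⟩

/-- Strong approximation at one place by contraction, abstract form. -/
theorem subset_locClosure (ι : Γ →* E) (N : Subgroup Γ) [N.Normal] (NZ : Set Γ)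
    (hinf : ∀ W ∈ 𝓝 (1 : Γ), ∀ O ∈ 𝓝 (1 : E), ∃ x ∈ N, x ∈ W ∧ ι x ∈ O ∧ x ∈ NZ)
    (Sig W0 L0 : Set E) (hW0 : W0 ∈ 𝓝 (1 : E)) (hL0 : IsCompact L0)
    (hSig : ∀ s ∈ Sig, ∀ w ∈ W0, s⁻¹ * w * s ∈ L0)
    (hunb : ∀ x ∈ N, x ∈ NZ → ∃ l : List E, (∀ s ∈ l, s ∈ Sig) ∧
      (l.prod)⁻¹ * ι x * l.prod ∉ W0)
    (C : Set E) (hC : IsCompact C) (B : Set Γ)
    (hcoc : ∀ a ∈ Submonoid.closure Sig, ∃ γ ∈ B, ι γ * a ∈ C)
    (hB : ∀ W ∈ 𝓝 (1 : Γ), ∃ W' ∈ 𝓝 (1 : Γ), ∀ γ ∈ B, ∀ x ∈ W', γ * x * γ⁻¹ ∈ W)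
    (NC : Set E) (hNC : ∀ y ∈ L0, y ∉ interior W0 → ∀ c ∈ C, c * y * c⁻¹ ∈ NC)
    (Tgt : Set E)
    (hloc : ∀ H : Subgroup E, IsClosed (H : Set E) →
      (∀ e ∈ closure (range ι), ∀ b ∈ H, e * b * e⁻¹ ∈ H) → (∃ b ∈ H, b ∈ NC) →
      Tgt ⊆ H) :
    Tgt ⊆ locClosure ι N := by
  classical
  refine hloc _ (isClosed_locClosure ι N)
    (fun e he b hb => conj_mem_locClosure_of_mem_closure he hb) ?_
  set K : Set (E × E) := C ×ˢ (L0 \ interior W0) with hKdef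
  have hK : IsCompact K := hC.prod (hL0.diff isOpen_interior)
  set S : Set Γ := {ν | ν ∈ N ∧ ∃ p : E × E, p ∈ K ∧ ι ν = p.1 * p.2 * p.1⁻¹} with hSdef
  have h1 : (1 : Γ) ∈ closure S := by
    rw [mem_closure_iff_nhds]
    intro W hW
    obtain ⟨W', hW', hconj⟩ := hB W hW
    obtain ⟨x, hxN, hxW, hxO, hxZ⟩ := hinf W' hW' W0 hW0
    obtain ⟨l, hl, hlW⟩ := hunb x hxN hxZ
    obtain ⟨a, ha, haL, haW⟩ := exists_exit hSig l hl 1 (one_mem _) (by simpa using hxO)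
      (by simpa using hlW)
    obtain ⟨γ, hγ, hγC⟩ := hcoc a ha
    refine ⟨γ * x * γ⁻¹, hconj γ hγ x hxW, Subgroup.Normal.conj_mem inferInstance x hxN γ,
      (ι γ * a, a⁻¹ * ι x * a), ⟨hγC, haL, fun h => haW (interior_subset h)⟩, ?_⟩
    simp only [map_mul, map_inv]
    group
  have hne : (𝓝[S] (1 : Γ)).NeBot := mem_closure_iff_nhdsWithin_neBot.mp h1
  choose! p hpK hp using fun ν (hν : ν ∈ S) => hν.2
  have hle : map p (𝓝[S] (1 : Γ)) ≤ 𝓟 K := by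
    rw [le_principal_iff, mem_map]
    exact mem_of_superset self_mem_nhdsWithin fun ν hν => hpK ν hν
  obtain ⟨p0, hp0K, hp0⟩ := hK hle
  refine ⟨p0.1 * p0.2 * p0.1⁻¹, ?_, hNC _ hp0K.2.1 hp0K.2.2 _ hp0K.1⟩
  rw [mem_locClosure]
  intro O hO W hW
  have hcont : Continuous fun q : E × E => q.1 * q.2 * q.1⁻¹ := by fun_prop
  have hO' : (fun q : E × E => q.1 * q.2 * q.1⁻¹) ⁻¹' O ∈ 𝓝 p0 := hcont.continuousAt hO
  have hfr : ∃ᶠ ν in 𝓝[S] (1 : Γ), p ν ∈ (fun q : E × E => q.1 * q.2 * q.1⁻¹) ⁻¹' O :=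
    mapClusterPt_iff_frequently.mp hp0 _ hO'
  have hev : ∀ᶠ ν in 𝓝[S] (1 : Γ), ν ∈ S ∧ ν ∈ W :=
    (eventually_mem_nhdsWithin).and (mem_nhdsWithin_of_mem_nhds hW)
  obtain ⟨ν, hνO, hνS, hνW⟩ := (hfr.and_eventually hev).exists
  exact ⟨ν, hνS.1, hνW, by rw [hp ν hνS]; exact hνO⟩

end One

section Many

variable {Γ X P : Type*} [Group Γ] [Group X]

/-- The data of the places: the integral elements and the neighbourhoods of `1`. -/
structure Levels (Γ P : Type*) [Group Γ] where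
  /-- the elements integral at `v` -/
  Kint : P → Subgroup Γ
  /-- the neighbourhoods of `1` at `v` -/
  Nr : P → Filter Γ
  /-- the neighbourhoods of `1` at the infinite places -/
  Nroo : Filter Γ
  mul_nr : ∀ v, ∀ W ∈ Nr v, ∃ W' ∈ Nr v, ∀ x ∈ W', ∀ y ∈ W', x * y ∈ W
  mul_nroo : ∀ W ∈ Nroo, ∃ W' ∈ Nroo, ∀ x ∈ W', ∀ y ∈ W', x * y ∈ W
  inv_nr : ∀ v, ∀ W ∈ Nr v, ∃ W' ∈ Nr v, ∀ x ∈ W', x⁻¹ ∈ W
  inv_nroo : ∀ W ∈ Nroo, ∃ W' ∈ Nroo, ∀ x ∈ W', x⁻¹ ∈ W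
  conj_nr : ∀ v (g : Γ), ∀ W ∈ Nr v, ∃ W' ∈ Nr v, ∀ x ∈ W', g * x * g⁻¹ ∈ W
  conj_nroo : ∀ g : Γ, ∀ W ∈ Nroo, ∃ W' ∈ Nroo, ∀ x ∈ W', g * x * g⁻¹ ∈ W
  one_nr : ∀ v, ∀ W ∈ Nr v, (1 : Γ) ∈ W
  one_nroo : ∀ W ∈ Nroo, (1 : Γ) ∈ W
  int_nr : ∀ v, (Kint v : Set Γ) ∈ Nr v
  fin : ∀ g : Γ, {v | g ∉ Kint v}.Finite

variable (L : Levels Γ P)

/-- `g` is of level `(T, W, Woo)` off the set `M`. -/
def Levels.Of (T : Finset P) (W : P → Set Γ) (Woo : Set Γ) (M : Set P) (g : Γ) : Prop :=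
  (∀ w ∈ T, g ∈ W w) ∧ g ∈ Woo ∧ ∀ w ∉ T, w ∉ M → g ∈ L.Kint w

/-- The poles outside `T1` are divided away one by one by elements of the kernel of `c`. -/
theorem Levels.exists_fix [DecidableEq P] (c : Γ →* X) (q0 : P) (T1 : Finset P)
    (hv : ∀ v ∉ T1, v ≠ q0 → ∀ g : Γ, ∀ W : P → Set Γ, (∀ w, W w ∈ L.Nr w) →
      ∀ Woo ∈ L.Nroo, ∃ ν : Γ, c ν = 1 ∧ L.Of T1 W Woo {q0, v} ν ∧ g * ν ∈ L.Kint v) :
    ∀ n : ℕ, ∀ g : Γ, {v | v ∉ T1 ∧ v ≠ q0 ∧ g ∉ L.Kint v}.ncard ≤ n →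
      ∀ W : P → Set Γ, (∀ w, W w ∈ L.Nr w) → ∀ Woo ∈ L.Nroo,
      ∃ μ : Γ, c μ = 1 ∧ (∀ w ∈ T1, μ ∈ W w) ∧ μ ∈ Woo ∧
        ∀ w ∉ T1, w ≠ q0 → g * μ ∈ L.Kint w := by
  intro n
  induction n with
  | zero =>
    intro g hg W hW Woo hWoo
    have hfin : {v | v ∉ T1 ∧ v ≠ q0 ∧ g ∉ L.Kint v}.Finite :=
      (L.fin g).subset fun v hv => hv.2.2
    have he : {v | v ∉ T1 ∧ v ≠ q0 ∧ g ∉ L.Kint v} = ∅ :=
      (Set.ncard_eq_zero hfin).mp (Nat.le_zero.mp hg)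
    refine ⟨1, map_one c, fun w _ => L.one_nr w _ (hW w), L.one_nroo _ hWoo, ?_⟩
    intro w hw hwq
    by_contra hcon
    have : w ∈ {v | v ∉ T1 ∧ v ≠ q0 ∧ g ∉ L.Kint v} := ⟨hw, hwq, by simpa using hcon⟩
    rw [he] at this
    exact this
  | succ n ih =>
    intro g hg W hW Woo hWoo
    have hfin : {v | v ∉ T1 ∧ v ≠ q0 ∧ g ∉ L.Kint v}.Finite :=
      (L.fin g).subset fun v hv => hv.2.2
    rcases Set.eq_empty_or_nonempty {v | v ∉ T1 ∧ v ≠ q0 ∧ g ∉ L.Kint v} with he | ⟨v, hv1⟩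
    · refine ⟨1, map_one c, fun w _ => L.one_nr w _ (hW w), L.one_nroo _ hWoo, ?_⟩
      intro w hw hwq
      by_contra hcon
      have : w ∈ {v | v ∉ T1 ∧ v ≠ q0 ∧ g ∉ L.Kint v} := ⟨hw, hwq, by simpa using hcon⟩
      rw [he] at this
      exact this
    · choose W' hW' hmul using fun w => L.mul_nr w (W w) (hW w)
      obtain ⟨Woo', hWoo', hmuloo⟩ := L.mul_nroo Woo hWoo
      obtain ⟨ν, hcν, ⟨hν1, hν2, hν3⟩, hν4⟩ := hv v hv1.1 hv1.2.1 g W' hW' Woo' hWoo'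
      have hsub : {w | w ∉ T1 ∧ w ≠ q0 ∧ g * ν ∉ L.Kint w} ⊆
          {w | w ∉ T1 ∧ w ≠ q0 ∧ g ∉ L.Kint w} \ {v} := by
        rintro w ⟨hw1, hw2, hw3⟩
        have hwv : w ≠ v := by
          rintro rfl
          exact hw3 hν4
        refine ⟨⟨hw1, hw2, fun hgw => hw3 (mul_mem hgw (hν3 w hw1 ?_))⟩, hwv⟩
        simp [hw2, hwv]
      have hcard : {w | w ∉ T1 ∧ w ≠ q0 ∧ g * ν ∉ L.Kint w}.ncard ≤ n := by
        have h1 := Set.ncard_le_ncard hsub (hfin.sdiff)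
        have h2 := Set.ncard_sdiff_singleton_add_one hv1 hfin
        omega
      obtain ⟨μ, hcμ, hμ1, hμ2, hμ3⟩ := ih (g * ν) hcard W' hW' Woo' hWoo'
      refine ⟨ν * μ, by rw [map_mul, hcν, hcμ, mul_one],
        fun w hw => hmul w _ (hν1 w hw) _ (hμ1 w hw), hmuloo _ hν2 _ hμ2, fun w hw hwq => ?_⟩
      rw [← mul_assoc]
      exact hμ3 w hw hwq

/-- Strong approximation for the fibres of `c`: a value of `c` which is taken arbitrarily close to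
`1` at all finite sets of places (with poles allowed) is taken arbitrarily close to `1` by
elements which are integral outside the finite set and `q0`. -/
theorem Levels.strong [DecidableEq P] (c : Γ →* X) (q0 : P) (T0 : Finset P)
    (hv : ∀ v ∉ T0, v ≠ q0 → ∀ g : Γ, ∀ T : Finset P, T0.erase q0 ⊆ T → v ∉ T → q0 ∉ T →
      ∀ W : P → Set Γ, (∀ w, W w ∈ L.Nr w) →
      ∀ Woo ∈ L.Nroo, ∃ ν : Γ, c ν = 1 ∧ L.Of T W Woo {q0, v} ν ∧ g * ν ∈ L.Kint v)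
    {r : X} (hr : ∀ T : Finset P, q0 ∉ T → ∀ W : P → Set Γ, (∀ w, W w ∈ L.Nr w) →
      ∀ Woo ∈ L.Nroo, ∃ g : Γ, c g = r ∧ (∀ w ∈ T, g ∈ W w) ∧ g ∈ Woo) :
    ∀ T : Finset P, q0 ∉ T → ∀ W : P → Set Γ, (∀ w, W w ∈ L.Nr w) →
      ∀ Woo ∈ L.Nroo, ∃ g : Γ, c g = r ∧ L.Of T W Woo {q0} g := by
  intro T hT W hW Woo hWoo
  classical
  set T1 : Finset P := T ∪ T0.erase q0 with hT1
  have hqT1 : q0 ∉ T1 := by simp [hT1, hT]
  set W1 : P → Set Γ := fun w => if w ∈ T then W w else L.Kint w with hW1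
  have hW1m : ∀ w, W1 w ∈ L.Nr w := by
    intro w
    by_cases hw : w ∈ T
    · simp only [hW1, hw, if_true]
      exact hW w
    · simp only [hW1, hw, if_false]
      exact L.int_nr w
  choose W' hW' hmul using fun w => L.mul_nr w (W1 w) (hW1m w)
  obtain ⟨Woo', hWoo', hmuloo⟩ := L.mul_nroo Woo hWoo
  obtain ⟨g, hcg, hg1, hg2⟩ := hr T1 hqT1 W' hW' Woo' hWoo'
  have hv' : ∀ v ∉ T1, v ≠ q0 → ∀ g : Γ, ∀ W : P → Set Γ, (∀ w, W w ∈ L.Nr w) →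
      ∀ Woo ∈ L.Nroo, ∃ ν : Γ, c ν = 1 ∧ L.Of T1 W Woo {q0, v} ν ∧ g * ν ∈ L.Kint v := by
    intro v hvT hvq g W hW Woo hWoo
    have hvT0 : v ∉ T0 := fun h => hvT (by simp [hT1, h, hvq])
    exact hv v hvT0 hvq g T1 (by simp [hT1]) hvT hqT1 W hW Woo hWoo
  obtain ⟨μ, hcμ, hμ1, hμ2, hμ3⟩ := L.exists_fix c q0 T1 hv' _ g le_rfl W' hW' Woo' hWoo'
  have hT1' : ∀ w ∈ T1, g * μ ∈ W1 w := fun w hw => hmul w _ (hg1 w hw) _ (hμ1 w hw)
  refine ⟨g * μ, by rw [map_mul, hcg, hcμ, mul_one], ?_, hmuloo _ hg2 _ hμ2, ?_⟩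
  · intro w hw
    have := hT1' w (by simp [hT1, hw])
    simpa only [hW1, hw, if_true] using this
  · intro w hw hwq
    have hwq' : w ≠ q0 := by simpa using hwq
    by_cases hw1 : w ∈ T1
    · have := hT1' w hw1
      simpa only [hW1, hw, if_false, SetLike.mem_coe] using this
    · exact hμ3 w hw1 hwq'

end Many

end Vale.Agent.P011.H777
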