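import Vale.Agent.P011.H777.SAAbs

/-!
# Strong approximation for a normal subgroup: the topology of the levels

The level topology off a set `M` of places on a group of rational points, and the theorem of
`SAAbs` in the language of levels.
-/

namespace Vale.Agent.P011.H777

open Topology Filter Set

variable {Γ X P : Type*} [Group Γ] [Group X] (L : Levels Γ P)

variable {L} in
theorem Levels.Of.mono {T : Finset P} {W W' : P → Set Γ} {Woo Woo' : Set Γ} {M : Set P} {g : Γ}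
    (h : L.Of T W Woo M g) (hW : ∀ w ∈ T, W w ⊆ W' w) (hoo : Woo ⊆ Woo') :
    L.Of T W' Woo' M g :=
  ⟨fun w hw => hW w hw (h.1 w hw), hoo h.2.1, h.2.2⟩

/-- The sets of level off `M`. -/
def Levels.sets (M : Set P) : Set (Set Γ) :=
  {U | ∃ T : Finset P, (∀ w ∈ T, w ∉ M) ∧ ∃ W : P → Set Γ, (∀ w, W w ∈ L.Nr w) ∧
    ∃ Woo ∈ L.Nroo, U = {g | L.Of T W Woo M g}}

/-- Refinement of a level: larger finite set, smaller neighbourhoods which consist of integral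
elements. -/
theorem Levels.exists_refine [DecidableEq P] (T T' : Finset P) (W : P → Set Γ)
    (hW : ∀ w, W w ∈ L.Nr w) :
    ∃ W' : P → Set Γ, (∀ w, W' w ∈ L.Nr w) ∧ ∀ (Woo : Set Γ) (M : Set P) (g : Γ),
      L.Of (T ∪ T') W' Woo M g → L.Of T W Woo M g := by
  refine ⟨fun w => W w ∩ L.Kint w, fun w => inter_mem (hW w) (L.int_nr w), ?_⟩
  rintro Woo M g ⟨h1, h2, h3⟩
  refine ⟨fun w hw => (h1 w (by simp [hw])).1, h2, fun w hw hwM => ?_⟩
  by_cases hw' : w ∈ T'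
  · exact (h1 w (by simp [hw'])).2
  · exact h3 w (by simp [hw, hw']) hwM

/-- The group topology of the levels off `M`. -/
@[reducible] def Levels.basis [DecidableEq P] (M : Set P) : GroupFilterBasis Γ where
  sets := L.sets M
  nonempty := ⟨_, ∅, by simp, fun _ => univ, fun _ => univ_mem, univ, univ_mem, rfl⟩
  inter_sets := by
    rintro _ _ ⟨T₁, hT₁, W₁, hW₁, U₁, hU₁, rfl⟩ ⟨T₂, hT₂, W₂, hW₂, U₂, hU₂, rfl⟩
    obtain ⟨W₁', hW₁', h1⟩ := L.exists_refine T₁ T₂ W₁ hW₁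
    obtain ⟨W₂', hW₂', h2⟩ := L.exists_refine T₂ T₁ W₂ hW₂
    refine ⟨_, ⟨T₁ ∪ T₂, fun w hw => ?_, fun w => W₁' w ∩ W₂' w,
      fun w => inter_mem (hW₁' w) (hW₂' w), U₁ ∩ U₂, inter_mem hU₁ hU₂, rfl⟩, ?_⟩
    · rcases Finset.mem_union.mp hw with h | h
      · exact hT₁ w h
      · exact hT₂ w h
    · rintro g hg
      refine ⟨h1 _ _ _ (hg.mono (fun _ _ => inter_subset_left) inter_subset_left),
        h2 _ _ _ ?_⟩
      have := hg.mono (W' := W₂') (Woo' := U₂) (fun _ _ => inter_subset_right)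
        inter_subset_right
      rwa [Finset.union_comm] at this
  one' := by
    rintro _ ⟨T, hT, W, hW, U, hU, rfl⟩
    exact ⟨fun w _ => L.one_nr w _ (hW w), L.one_nroo _ hU, fun w _ _ => one_mem _⟩
  mul' := by
    rintro _ ⟨T, hT, W, hW, U, hU, rfl⟩
    choose W' hW' hmul using fun w => L.mul_nr w (W w) (hW w)
    obtain ⟨U', hU', hmuloo⟩ := L.mul_nroo U hU
    refine ⟨_, ⟨T, hT, W', hW', U', hU', rfl⟩, ?_⟩
    rintro _ ⟨x, hx, y, hy, rfl⟩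
    exact ⟨fun w hw => hmul w _ (hx.1 w hw) _ (hy.1 w hw), hmuloo _ hx.2.1 _ hy.2.1,
      fun w hw hwM => mul_mem (hx.2.2 w hw hwM) (hy.2.2 w hw hwM)⟩
  inv' := by
    rintro _ ⟨T, hT, W, hW, U, hU, rfl⟩
    choose W' hW' hinv using fun w => L.inv_nr w (W w) (hW w)
    obtain ⟨U', hU', hinvoo⟩ := L.inv_nroo U hU
    refine ⟨_, ⟨T, hT, W', hW', U', hU', rfl⟩, ?_⟩
    intro x hx
    exact ⟨fun w hw => hinv w _ (hx.1 w hw), hinvoo _ hx.2.1,
      fun w hw hwM => inv_mem (hx.2.2 w hw hwM)⟩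
  conj' := by
    rintro g _ ⟨T, hT, W, hW, U, hU, rfl⟩
    classical
    have hfin := L.fin g
    set T' : Finset P := hfin.toFinset.filter fun w => w ∉ M with hT'
    obtain ⟨W₁, hW₁, h1⟩ := L.exists_refine T T' W hW
    choose W' hW' hconj using fun w => L.conj_nr w g (W₁ w) (hW₁ w)
    obtain ⟨U', hU', hconjoo⟩ := L.conj_nroo g U hU
    refine ⟨_, ⟨T ∪ T', fun w hw => ?_, W', hW', U', hU', rfl⟩, ?_⟩
    · rcases Finset.mem_union.mp hw with h | h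
      · exact hT w h
      · exact (Finset.mem_filter.mp h).2
    · intro x hx
      refine h1 _ _ _ ⟨fun w hw => hconj w _ (hx.1 w hw), hconjoo _ hx.2.1, fun w hw hwM => ?_⟩
      have hg : g ∈ L.Kint w := by
        by_contra hcon
        exact hw (Finset.mem_union.mpr (Or.inr (by simp [hT', hcon, hwM])))
      exact mul_mem (mul_mem hg (hx.2.2 w hw hwM)) (inv_mem hg)

/-- Strong approximation at one place `v`: the elements of a normal subgroup `N` which are close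
to `1` at all places but `q0` and `v` approximate at `v` the inverse of every element whose image
is in the target. -/
theorem Levels.approx [DecidableEq P] (q0 v : P) {E : Type*} [Group E]
    [TopologicalSpace E] [IsTopologicalGroup E] (ι : Γ →* E)
    (hι : ∀ W ∈ L.Nr v, ∃ O ∈ 𝓝 (1 : E), ι ⁻¹' O ⊆ W)
    (N : Subgroup Γ) [N.Normal] (NZ : Set Γ)
    (hinf : ∀ T : Finset P, q0 ∉ T → v ∉ T → ∀ W : P → Set Γ, (∀ w, W w ∈ L.Nr w) →
      ∀ Woo ∈ L.Nroo, ∀ O ∈ 𝓝 (1 : E), ∃ x ∈ N, x ∈ NZ ∧ ι x ∈ O ∧ L.Of T W Woo {q0, v} x)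
    (Sig W0 L0 : Set E) (hW0 : W0 ∈ 𝓝 (1 : E)) (hL0 : IsCompact L0)
    (hSig : ∀ s ∈ Sig, ∀ w ∈ W0, s⁻¹ * w * s ∈ L0)
    (hunb : ∀ x ∈ N, x ∈ NZ → ∃ l : List E, (∀ s ∈ l, s ∈ Sig) ∧
      (l.prod)⁻¹ * ι x * l.prod ∉ W0)
    (C : Set E) (hC : IsCompact C) (B : Set Γ)
    (hcoc : ∀ a ∈ Submonoid.closure Sig, ∃ γ ∈ B, ι γ * a ∈ C)
    (TB : Finset P) (hBint : ∀ γ ∈ B, ∀ w ∉ TB, w ≠ q0 → w ≠ v → γ ∈ L.Kint w)
    (hBnr : ∀ w, w ≠ q0 → w ≠ v → ∀ W ∈ L.Nr w, ∃ W' ∈ L.Nr w, ∀ γ ∈ B, ∀ x ∈ W',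
      γ * x * γ⁻¹ ∈ W)
    (hBnroo : ∀ W ∈ L.Nroo, ∃ W' ∈ L.Nroo, ∀ γ ∈ B, ∀ x ∈ W', γ * x * γ⁻¹ ∈ W)
    (NC : Set E) (hNC : ∀ y ∈ L0, y ∉ interior W0 → ∀ c ∈ C, c * y * c⁻¹ ∈ NC)
    (Tgt : Set E)
    (hloc : ∀ H : Subgroup E, IsClosed (H : Set E) →
      (∀ e ∈ closure (range ι), ∀ b ∈ H, e * b * e⁻¹ ∈ H) → (∃ b ∈ H, b ∈ NC) →
      Tgt ⊆ H)
    (T : Finset P) (hqT : q0 ∉ T) (hvT : v ∉ T) (W : P → Set Γ) (hW : ∀ w, W w ∈ L.Nr w)
    (Woo : Set Γ) (hWoo : Woo ∈ L.Nroo) (g : Γ) (hg : (ι g)⁻¹ ∈ Tgt) (O : Set Γ)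
    (hO : O ∈ L.Nr v) :
    ∃ ν ∈ N, L.Of T W Woo {q0, v} ν ∧ g * ν ∈ O := by
  classical
  let _ : TopologicalSpace Γ := (L.basis {q0, v}).topology
  have : IsTopologicalGroup Γ := (L.basis {q0, v}).isTopologicalGroup
  have hbas : ∀ U : Set Γ, U ∈ 𝓝 (1 : Γ) ↔ ∃ V ∈ L.sets {q0, v}, V ⊆ U := fun U =>
    (L.basis {q0, v}).nhds_one_hasBasis.mem_iff
  have hmain := subset_locClosure ι N NZ ?_ Sig W0 L0 hW0 hL0 hSig hunb C hC B hcoc ?_ NC hNC
    Tgt hloc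
  · obtain ⟨O', hO', hO'O⟩ := hι O hO
    have h1 : (fun x : E => ι g * x) ⁻¹' O' ∈ 𝓝 (ι g)⁻¹ := by
      apply (by fun_prop : Continuous fun x : E => ι g * x).continuousAt
      simpa using hO'
    have h2 : {x : Γ | L.Of T W Woo {q0, v} x} ∈ 𝓝 (1 : Γ) := by
      rw [hbas]
      refine ⟨_, ⟨T, fun w hw => ?_, W, hW, Woo, hWoo, rfl⟩, Subset.rfl⟩
      simp only [mem_insert_iff, mem_singleton_iff, not_or]
      exact ⟨fun h => hqT (h ▸ hw), fun h => hvT (h ▸ hw)⟩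
    obtain ⟨ν, hν, hνW, hνO⟩ := mem_locClosure.mp (hmain hg) _ h1 _ h2
    refine ⟨ν, hν, hνW, hO'O ?_⟩
    simpa using hνO
  · intro U hU O hO
    obtain ⟨_, ⟨T, hT, W, hW, Woo, hWoo, rfl⟩, hsub⟩ := (hbas U).mp hU
    have hq : q0 ∉ T := fun h => hT q0 h (by simp)
    have hv : v ∉ T := fun h => hT v h (by simp)
    obtain ⟨x, hxN, hxZ, hxO, hxL⟩ := hinf T hq hv W hW Woo hWoo O hO
    exact ⟨x, hxN, hsub hxL, hxO, hxZ⟩
  · intro U hU
    obtain ⟨_, ⟨T, hT, W, hW, Woo, hWoo, rfl⟩, hsub⟩ := (hbas U).mp hU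
    set TB' : Finset P := TB.filter fun w => w ∉ ({q0, v} : Set P) with hTB'
    obtain ⟨W₁, hW₁, h1⟩ := L.exists_refine T TB' W hW
    have hex : ∀ w, ∃ W' ∈ L.Nr w, w ≠ q0 → w ≠ v → ∀ γ ∈ B, ∀ x ∈ W', γ * x * γ⁻¹ ∈ W₁ w := by
      intro w
      by_cases hw : w ≠ q0 ∧ w ≠ v
      · obtain ⟨W', hW', h⟩ := hBnr w hw.1 hw.2 (W₁ w) (hW₁ w)
        exact ⟨W', hW', fun _ _ => h⟩
      · exact ⟨univ, univ_mem, fun h1 h2 => absurd ⟨h1, h2⟩ hw⟩
    choose W' hW' hconj using hex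
    obtain ⟨Woo', hWoo', hconjoo⟩ := hBnroo Woo hWoo
    refine ⟨{x | L.Of (T ∪ TB') W' Woo' {q0, v} x}, ?_, ?_⟩
    · rw [hbas]
      refine ⟨_, ⟨T ∪ TB', fun w hw => ?_, W', hW', Woo', hWoo', rfl⟩, Subset.rfl⟩
      rcases Finset.mem_union.mp hw with h | h
      · exact hT w h
      · exact (Finset.mem_filter.mp h).2
    · intro γ hγ x hx
      apply hsub
      refine h1 _ _ _ ⟨fun w hw => ?_, hconjoo γ hγ _ hx.2.1, fun w hw hwM => ?_⟩
      · have hwM : w ∉ ({q0, v} : Set P) := by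
          rcases Finset.mem_union.mp hw with h | h
          · exact hT w h
          · exact (Finset.mem_filter.mp h).2
        simp only [mem_insert_iff, mem_singleton_iff, not_or] at hwM
        exact hconj w hwM.1 hwM.2 γ hγ x (hx.1 w hw)
      · have hwM' := hwM
        simp only [mem_insert_iff, mem_singleton_iff, not_or] at hwM'
        have hTBw : w ∉ TB := fun h =>
          hw (Finset.mem_union.mpr (Or.inr (by simp only [hTB', Finset.mem_filter]; exact ⟨h, hwM⟩)))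
        have hγw := hBint γ hγ w hTBw hwM'.1 hwM'.2
        exact mul_mem (mul_mem hγw (hx.2.2 w hw hwM)) (inv_mem hγw)

end Vale.Agent.P011.H777
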